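import Mathlib
import Vale.Agent.P126.Main

/-!
# Duality of metric entropy: sub-polynomial scale with bounded factor, and an absolute scale
-/

noncomputable section

open Real
open scoped Pointwise

open Vale.Agent.P126

/-- Entropy duality in both directions: a trade-off with a free integer parameter, and for each
exponent a factor independent of the dimension and of the bodies at that power of the entropy; at
absolute scales, linear bounds up to an arbitrarily small multiple of the square. -/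
theorem Vale.Agent.Results.P126.EntropyDualitySubpolyScale.result :
    (∀ (n : ℕ) (K L : Set (Fin n → ℝ)), IsBody K → IsBody L → ∀ t : ℝ, 0 < t →
      CoveredBy K (t • L) (covNum K (t • L)) ∧
      CoveredBy (polar L) (t • polar K) (covNum (polar L) (t • polar K))) ∧
    (∃ C : ℝ, 1 ≤ C ∧ ∀ J : ℕ, 4 ≤ J → ∀ (n : ℕ) (K L : Set (Fin n → ℝ)), IsBody K → IsBody L →
      log (covNum K L) ≤ C * J * log (covNum (polar L)
        ((C * (J : ℝ) ^ 6 * (2 + log (covNum K L)) ^ (6 / (J : ℝ)))⁻¹ • polar K)) ∧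
      log (covNum (polar L) (polar K)) ≤ C * J * log (covNum K
        ((C * (J : ℝ) ^ 6 * (2 + log (covNum (polar L) (polar K))) ^ (6 / (J : ℝ)))⁻¹ • L))) ∧
    (∀ η : ℝ, 0 < η → ∃ C : ℝ, 1 ≤ C ∧
      ∀ (n : ℕ) (K L : Set (Fin n → ℝ)), IsBody K → IsBody L →
        log (covNum K L) ≤
          C * log (covNum (polar L) ((C * (2 + log (covNum K L)) ^ η)⁻¹ • polar K)) ∧
        log (covNum (polar L) (polar K)) ≤
          C * log (covNum K ((C * (2 + log (covNum (polar L) (polar K))) ^ η)⁻¹ • L))) ∧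
    (∃ C : ℝ, 1 ≤ C ∧ ∀ J : ℕ, 4 ≤ J → ∀ B : ℝ, C * J ≤ B →
      ∀ (n : ℕ) (K L : Set (Fin n → ℝ)), IsBody K → IsBody L →
        log (covNum K L) ≤ C * J * log (covNum (polar L) ((C * B ^ 6)⁻¹ • polar K)) +
          C * log (covNum (polar L) ((C * B ^ 6)⁻¹ • polar K)) ^ 2 / B ^ J ∧
        log (covNum (polar L) (polar K)) ≤ C * J * log (covNum K ((C * B ^ 6)⁻¹ • L)) +
          C * log (covNum K ((C * B ^ 6)⁻¹ • L)) ^ 2 / B ^ J) ∧
    (∀ δ : ℝ, 0 < δ → ∃ C : ℝ, 1 ≤ C ∧
      ∀ (n : ℕ) (K L : Set (Fin n → ℝ)), IsBody K → IsBody L →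
        log (covNum K L) ≤ C * log (covNum (polar L) (C⁻¹ • polar K)) +
          δ * log (covNum (polar L) (C⁻¹ • polar K)) ^ 2 ∧
        log (covNum (polar L) (polar K)) ≤ C * log (covNum K (C⁻¹ • L)) +
          δ * log (covNum K (C⁻¹ • L)) ^ 2) := by
  refine ⟨fun n K L hK hL t ht => ⟨?_, ?_⟩, two_sided, fixed_exponent,
    absolute_scale⟩
  · exact coveredBy_covNum hK.2.1 (smul_interior_nonempty hL.2.2.1 ht.ne')
  · exact coveredBy_covNum (isBody_polar hL).2.1
      (smul_interior_nonempty (isBody_polar hK).2.2.1 ht.ne')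

end
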