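import Vale.Agent.P126.Rad.Main

/-!
# Entropy duality for pairs without signed growth at a fixed sample size
-/

noncomputable section

open Finset Real
open scoped BigOperators Pointwise

open Vale.Agent.P126

/-- Both inequalities of the duality conjecture, with scale 26 and a factor depending only on `T`,
for all pairs whose mean signed sum over `T` points is at most `T / 26`. -/
theorem Vale.Agent.Results.P126.RademacherScaleDuality.result :
    ∀ T : ℕ, 1 ≤ T → ∃ b : ℝ, 1 ≤ b ∧
      ∀ (n : ℕ) (K L : Set (Fin n → ℝ)), IsBody K → IsBody L →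
        (∀ x : Fin T → Fin n → ℝ, (∀ i, x i ∈ polar L) →
          ∀ f : (Fin T → Bool) → Fin n → ℝ, (∀ σ, f σ ∈ K) →
            ∑ σ : Fin T → Bool, ∑ i, (if σ i then (1 : ℝ) else -1) * (f σ ⬝ᵥ x i) ≤
              2 ^ T * ((T : ℝ) * (1 / 26))) →
        (1 / b) * Real.log (covNum (polar L) ((26 : ℝ) • polar K)) ≤ Real.log (covNum K L) ∧
        Real.log (covNum K L) ≤
          b * Real.log (covNum (polar L) ((26 : ℝ)⁻¹ • polar K)) :=
  Rad.duality

end
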