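import Mathlib
import Vale.Agent.P126.Uncond.Equivalent

/-!
# Duality of metric entropy with absolute constants for unconditional bodies
-/

noncomputable section

open Real
open scoped Pointwise

open Vale.Agent.P126 Vale.Agent.P126.Uncond

/-- Entropy duality holds with absolute constants for every pair of symmetric convex bodies that
are unconditional with respect to one common basis of `Fin n → ℝ`; if the unconditional constants
of that basis are at most `C`, the scale grows like `C ^ 2` and the factor stays absolute. -/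
theorem Vale.Agent.Results.P126.UnconditionalDuality.result :
    (∀ (n : ℕ) (K L : Set (Fin n → ℝ)), IsBody K → IsBody L → ∀ t : ℝ, 0 < t →
      CoveredBy K (t • L) (covNum K (t • L)) ∧
      CoveredBy (polar L) (t • polar K) (covNum (polar L) (t • polar K))) ∧
    (∃ a b : ℝ, a = 385 ∧ b = 120 ∧
      ∀ (C : ℝ), 1 ≤ C → ∀ (n : ℕ) (K L : Set (Fin n → ℝ)), IsBody K → IsBody L →
        (∃ T : (Fin n → ℝ) ≃ₗ[ℝ] (Fin n → ℝ),
          IsUncondWith C (T '' K) ∧ IsUncondWith C (T '' L)) →
        1 / b * log (covNum (polar L) ((a * C ^ 2) • polar K)) ≤ log (covNum K L) ∧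
        log (covNum K L) ≤ b * log (covNum (polar L) ((a * C ^ 2)⁻¹ • polar K))) := by
  refine ⟨fun n K L hK hL t ht => ⟨?_, ?_⟩, 385, 120, rfl, rfl,
    fun C hC n K L hK hL ⟨T, hTK, hTL⟩ => duality_with hC hK hL T hTK hTL⟩
  · exact coveredBy_covNum hK.2.1 (smul_interior_nonempty hL.2.2.1 ht.ne')
  · exact coveredBy_covNum (isBody_polar hL).2.1
      (smul_interior_nonempty (isBody_polar hK).2.2.1 ht.ne')

end
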